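import Crest.Agent.N218.Al.Kr

/-!
# Row 218 (helper23): the algebra of the piece (D6)
-/

set_option autoImplicit false
set_option linter.unusedSimpArgs false

open PowerSeries Finset

noncomputable section

namespace Crest.Agent.N218.Al

/-- `S[ε₁, ε₂]` -/
def DD := DualNumber (DualNumber S)
instance : CommRing DD := inferInstanceAs (CommRing (DualNumber (DualNumber S)))
/-- scalars -/
def sc : S →+* DD :=
  (TrivSqZeroExt.inlHom (DualNumber S) (DualNumber S)).comp (TrivSqZeroExt.inlHom S S)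
/-- first generator -/
def e1 : DD := (TrivSqZeroExt.inl DualNumber.eps : DualNumber (DualNumber S))
/-- second generator -/
def e2 : DD := (DualNumber.eps : DualNumber (DualNumber S))
/-- the components -/
def cq (i : Fin 4) : DualNumber (DualNumber S) →+ S where
  toFun x := ![x.fst.fst, x.fst.snd, x.snd.fst, x.snd.snd] i
  map_zero' := by fin_cases i <;> simp
  map_add' x y := by fin_cases i <;> simp
/-- the components -/
def cp (i : Fin 4) : DD →+ S := cq i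

theorem ext4 {x y : DD} (h0 : cp 0 x = cp 0 y) (h1 : cp 1 x = cp 1 y) (h2 : cp 2 x = cp 2 y)
    (h3 : cp 3 x = cp 3 y) : x = y :=
  TrivSqZeroExt.ext (TrivSqZeroExt.ext h0 h1) (TrivSqZeroExt.ext h2 h3)
theorem cq_mul (x y : DualNumber (DualNumber S)) : cq 0 (x * y) = cq 0 x * cq 0 y ∧
    cq 1 (x * y) = cq 0 x * cq 1 y + cq 1 x * cq 0 y ∧
    cq 2 (x * y) = cq 0 x * cq 2 y + cq 2 x * cq 0 y ∧
    cq 3 (x * y) = cq 0 x * cq 3 y + cq 1 x * cq 2 y + cq 2 x * cq 1 y + cq 3 x * cq 0 y := by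
  simp [cq]; ring
@[simp] theorem cp0_mul (x y : DD) : cp 0 (x * y) = cp 0 x * cp 0 y := (cq_mul x y).1
@[simp] theorem cp1_mul (x y : DD) : cp 1 (x * y) = cp 0 x * cp 1 y + cp 1 x * cp 0 y :=
  (cq_mul x y).2.1
@[simp] theorem cp2_mul (x y : DD) : cp 2 (x * y) = cp 0 x * cp 2 y + cp 2 x * cp 0 y :=
  (cq_mul x y).2.2.1
@[simp] theorem cp3_mul (x y : DD) :
    cp 3 (x * y) = cp 0 x * cp 3 y + cp 1 x * cp 2 y + cp 2 x * cp 1 y + cp 3 x * cp 0 y :=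
  (cq_mul x y).2.2.2
@[simp] theorem cp0_sc (s : S) : cp 0 (sc s) = s := rfl
@[simp] theorem cp1_sc (s : S) : cp 1 (sc s) = 0 := rfl
@[simp] theorem cp2_sc (s : S) : cp 2 (sc s) = 0 := rfl
@[simp] theorem cp3_sc (s : S) : cp 3 (sc s) = 0 := rfl
@[simp] theorem cp0_one : cp 0 1 = 1 := rfl
@[simp] theorem cp1_one : cp 1 1 = 0 := rfl
@[simp] theorem cp2_one : cp 2 1 = 0 := rfl
@[simp] theorem cp3_one : cp 3 1 = 0 := rfl
@[simp] theorem cp0_e1 : cp 0 e1 = 0 := rfl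
@[simp] theorem cp1_e1 : cp 1 e1 = 1 := rfl
@[simp] theorem cp2_e1 : cp 2 e1 = 0 := rfl
@[simp] theorem cp3_e1 : cp 3 e1 = 0 := rfl
@[simp] theorem cp0_e2 : cp 0 e2 = 0 := rfl
@[simp] theorem cp1_e2 : cp 1 e2 = 0 := rfl
@[simp] theorem cp2_e2 : cp 2 e2 = 1 := rfl
@[simp] theorem cp3_e2 : cp 3 e2 = 0 := rfl
theorem cp_sc (i : Fin 4) (s : S) (x : DD) : cp i (sc s * x) = s * cp i x := by
  fin_cases i <;> simp

/-- integral elements -/
def OD : Subring DD where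
  carrier := {x | ∀ i, cp i x ∈ OS}
  mul_mem' {a b} ha hb i := by
    fin_cases i <;> simp only [Fin.zero_eta, Fin.mk_one, Fin.reduceFinMk, cp0_mul, cp1_mul, cp2_mul,
      cp3_mul] <;> repeat' first | exact OS.mul_mem (ha _) (hb _) | apply OS.add_mem
  add_mem' {a b} ha hb i := by rw [map_add]; exact OS.add_mem (ha i) (hb i)
  one_mem' i := by fin_cases i <;> simp
  zero_mem' i := by simp
  neg_mem' {a} ha i := by rw [map_neg]; exact OS.neg_mem (ha i)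

theorem sc_mem {s : S} (h : s ∈ OS) : sc s ∈ OD := fun i => by fin_cases i <;> simp [h]
theorem e1_mem : e1 ∈ OD := fun i => by fin_cases i <;> simp
theorem e2_mem : e2 ∈ OD := fun i => by fin_cases i <;> simp

theorem sc_can {x y : DD} (h : sc (t ^ 2) * x = sc (t ^ 2) * y) : x = y := by
  have k : ∀ i, cp i x = cp i y := fun i => mul_left_cancel₀ (pow_ne_zero 2 t_ne) (by
    rw [← cp_sc, ← cp_sc, h])
  exact ext4 (k 0) (k 1) (k 2) (k 3)

/-- truncated exponential -/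
def EE (a b c : S) : DD := sc (t ^ 2) - sc (t * a) * e1 - sc (t * b) * e2 + sc (a * b - c) * (e1 * e2)

theorem EE_mul (a b c a' b' c' : S) :
    EE a b c * EE a' b' c' = sc (t ^ 2) * EE (a + a') (b + b') (c + c') := by
  apply ext4 <;> simp [EE, -map_pow] <;> ring

theorem EE_mem {a b c : S} (ha : a ∈ OS) (hb : b ∈ OS) (hc : c ∈ OS) : EE a b c ∈ OD :=
  OD.add_mem (OD.sub_mem (OD.sub_mem (sc_mem (OS.pow_mem t_mem 2))
    (OD.mul_mem (sc_mem (OS.mul_mem t_mem ha)) e1_mem))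
    (OD.mul_mem (sc_mem (OS.mul_mem t_mem hb)) e2_mem))
    (OD.mul_mem (sc_mem (OS.sub_mem (OS.mul_mem ha hb) hc)) (OD.mul_mem e1_mem e2_mem))

theorem EE_prod {α : Type*} (s : Finset α) (k : α → ℕ) (a b y : α → S)
    (hy : ∀ i, N L (k i) * y i = 1) :
    sc (t ^ 2) * ∏ i ∈ s, (1 - sc L ^ k i * ((1 + sc (a i) * e1) * (1 + sc (b i) * e2))) =
      sc (∏ i ∈ s, (1 - L ^ k i)) * EE (∑ i ∈ s, L ^ k i * y i * a i) (∑ i ∈ s, L ^ k i * y i * b i)
        (∑ i ∈ s, L ^ k i * y i ^ 2 * (a i * b i)) := by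
  classical
  induction s using Finset.induction_on with
  | empty => simp [EE]
  | insert i s hi ih =>
    have w : (1 - L ^ k i) * y i = t := by rw [← t_N, mul_assoc, hy, mul_one]
    have one : sc (t ^ 2) * (1 - sc L ^ k i * ((1 + sc (a i) * e1) * (1 + sc (b i) * e2))) =
        sc (1 - L ^ k i) * EE (L ^ k i * y i * a i) (L ^ k i * y i * b i)
          (L ^ k i * y i ^ 2 * (a i * b i)) := by
      rw [← map_pow]
      apply ext4 <;> simp [EE, -map_pow]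
      · ring
      · linear_combination -t * L ^ k i * a i * w
      · linear_combination -t * L ^ k i * b i * w
      · linear_combination L ^ k i * a i * b i * ((1 - L ^ k i) * y i + t) * w
    simp only [prod_insert hi, sum_insert hi]
    apply sc_can
    rw [map_mul sc (1 - _), mul_left_comm (sc (t ^ 2)) (_ * _), ← EE_mul]
    rw [mul_mul_mul_comm, ← one, ← ih, mul_mul_mul_comm, mul_assoc]

theorem LN2 (m : ℕ) : (∃ z, L ^ m = 1 - m * t + t ^ 2 * z) ∧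
    ∃ z, N L m = m - m * C ((m - 1) / 2 : ℚ) * t + t ^ 2 * z := by
  have h2 : ∀ n : ℕ, 2 * (C ((n - 1) / 2 : ℚ) : S) = n - 1 := fun n => by
    rw [← map_ofNat (C (R := ℚ)), ← map_mul, mul_div_cancel₀ _ two_ne_zero]; simp
  induction m with
  | zero => exact ⟨⟨0, by simp⟩, 0, by simp [N]⟩
  | succ m ih =>
    obtain ⟨⟨z, e⟩, z', e'⟩ := ih
    refine ⟨⟨z * L + m, by rw [pow_succ, e, L]; push_cast; ring⟩, z + z', ?_⟩
    have a := h2 m
    have b := h2 (m + 1)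
    rw [N, sum_range_succ, ← N, e, e']
    apply mul_left_cancel₀ (a := (2 : S)) (fun h => by simpa [map_ofNat] using congrArg constantCoeff h)
    push_cast at b ⊢
    linear_combination -m * t * a + (m + 1) * t * b

theorem L_inv_sq {k : ℕ} (hk : k ≠ 0) {y : S} (hy : N L k * y = 1) :
    ∃ z, L ^ k * y ^ 2 = C (1 / k ^ 2 : ℚ) * (1 - t) + t ^ 2 * z := by
  obtain ⟨⟨z, e⟩, z', e'⟩ := LN2 k
  have h2 : 2 * (C ((k - 1) / 2 : ℚ) : S) = k - 1 := by
    rw [← map_ofNat (C (R := ℚ)), ← map_mul, mul_div_cancel₀ _ two_ne_zero]; simp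
  have h3 : (C (1 / k ^ 2 : ℚ) : S) * k ^ 2 = 1 := by
    rw [← map_natCast (C (R := ℚ)), ← map_pow, ← map_mul, one_div_mul_cancel (by positivity), map_one]
  generalize (C ((k - 1) / 2 : ℚ) : S) = c at *
  generalize (C (1 / k ^ 2 : ℚ) : S) = κ at *
  have : ∃ w, k ^ 2 * L ^ k = (1 - t) * N L k ^ 2 + t ^ 2 * w :=
    ⟨k ^ 2 * z - (1 - t) * ((k * c - t * z') ^ 2 + 2 * k * z') - 2 * k ^ 2 * c, by
      rw [e, e']; linear_combination (k : S) ^ 2 * t * h2⟩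
  obtain ⟨w, e⟩ := this
  exact ⟨κ * y ^ 2 * w, by
    linear_combination κ * y ^ 2 * e - L ^ k * y ^ 2 * h3 + κ * (1 - t) * (N L k * y + 1) * hy⟩

/-- the exponents run through the odd residues -/
def Odq {ι : Type*} [Fintype ι] (q : ℕ) (k : ι → ℕ) : Prop :=
  (∀ i, Odd (k i)) ∧ ∃ m ∈ O2, 2 * ∑ i, (1 / k i ^ 2 : ℚ) = q * (2 * m + 1)

theorem s2_val {ι : Type*} [Fintype ι] {q : ℕ} {k : ι → ℕ} (h : Odq q k) {y : ι → S}
    (hy : ∀ i, N L (k i) * y i = 1) {Y : S} (hY : N L q * Y = 1) (n : ℤ) :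
    ∃ h ∈ OS, (∃ m ∈ O2, constantCoeff h = 8 * m + 4) ∧
      ∃ z, Y * ((∑ i, L ^ k i * y i ^ 2) * (8 * (2 * n + 1))) = h + t ^ 2 * z := by
  obtain ⟨hk, m, hm, e⟩ := h
  choose z ez using fun i => L_inv_sq (hk i).pos.ne' (hy i)
  obtain ⟨-, z', e'⟩ := LN2 q
  have hn := intCast_mem O2 n
  have o : (2 * m + 1) * (2 * n + 1) ∈ O2 := by
    refine O2.mul_mem (O2.add_mem (O2.mul_mem (ofNat_mem O2 2) ?_) O2.one_mem)
      (O2.add_mem (O2.mul_mem (ofNat_mem O2 2) ?_) O2.one_mem) <;> assumption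
  have h2 : 2 * (C ((q - 1) / 2 : ℚ) : S) = q - 1 := by
    rw [← map_ofNat (C (R := ℚ)), ← map_mul, mul_div_cancel₀ _ two_ne_zero]; simp
  have h3 : 2 * ∑ i, L ^ k i * y i ^ 2 = q * (2 * C m + 1) * (1 - t) + t ^ 2 * (2 * ∑ i, z i) := by
    have := congrArg (C (R := ℚ)) e
    simp only [map_mul, map_sum, map_ofNat, map_natCast, map_add, map_one] at this
    simp only [ez, sum_add_distrib, ← sum_mul, ← mul_sum]
    linear_combination (1 - t) * this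
  refine ⟨C ((2 * m + 1) * (2 * n + 1)) * ((1 - t) * (4 + 2 * (q - 1) * t)),
    OS.mul_mem (C_mem o) (OS.mul_mem L_mem (OS.add_mem (ofNat_mem OS 4) (OS.mul_mem (OS.mul_mem
      (ofNat_mem OS 2) (OS.sub_mem (natCast_mem OS q) OS.one_mem)) t_mem))),
    ⟨2 * m * n + m + n, O2.add_mem (O2.add_mem (O2.mul_mem (O2.mul_mem (ofNat_mem O2 2) hm) hn) hm)
      hn, by simp [cc_t, map_ofNat]; ring⟩, ?_⟩
  generalize (C ((q - 1) / 2 : ℚ) : S) = c at *
  simp only [map_mul, map_add, map_ofNat, map_one, map_intCast]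
  refine ⟨Y * (2 * n + 1) * (8 * ∑ i, z i + 4 * (2 * C m + 1) * (1 - t) *
    (q * c ^ 2 - z' * (1 + c * t))), ?_⟩
  linear_combination 4 * Y * (2 * n + 1) * h3 + (2 * C m + 1) * (2 * n + 1) * (1 - t) *
    (4 * (1 + c * t) * hY - 4 * (1 + c * t) * Y * e' + 2 * t * h2)

theorem fin_aux {q n M : ℕ} (hM : n + 7 ≤ M) {υ a g z w Y : S} (hυ : UO υ) (hw : w ∈ OS)
    (hY : N L q * Y = 1)
    (h : t ^ (n + 1) * υ * N L q * a = t ^ (n + 5) * υ * g + t ^ M * z + t * N L q ^ 2 * w) :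
    Ng q (a - t ^ 4 * (Y * g)) := by
  obtain ⟨j, rfl⟩ := Nat.exists_eq_add_of_le hM
  obtain ⟨-, τ, hτ, e⟩ := hυ
  obtain ⟨w', e'⟩ : ∃ w', w' = Y ^ 2 * (υ * N L q * a - t ^ 4 * υ * g - t ^ (6 + j) * z) := ⟨_, rfl⟩
  have k : t ^ n * w' = w := mul_left_cancel₀ t_ne (by
    rw [e']; linear_combination Y ^ 2 * h + t * w * (N L q * Y + 1) * hY)
  refine ⟨t ^ j * τ * Y * z, τ * w', OS.mul_mem hτ (shift_mem (k ▸ hw)), ?_⟩
  rw [e']
  linear_combination (-τ * (υ * N L q * a - t ^ 4 * υ * g - t ^ (6 + j) * z) * Y - τ * υ * a) * hY +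
    (t ^ 4 * Y * g - a) * e

/-- the Euler class of `(∑ j, L₁ ^ a j L₂ ^ b j) ⊗ ∑ i, L ^ k i` -/
def eu {K ι J : Type*} [CommRing K] [Fintype ι] [Fintype J] (l h1 h2 : K) (k : ι → ℕ)
    (a b : J → ℤ) : K := ∏ i, ∏ j, (1 - l ^ k i * ((1 + a j * h1) * (1 + b j * h2)))

theorem map_eu {K K' ι J : Type*} [CommRing K] [CommRing K'] [Fintype ι] [Fintype J] (f : K →+* K')
    (l h1 h2 : K) (k : ι → ℕ) (a b : J → ℤ) :
    f (eu l h1 h2 k a b) = eu (f l) (f h1) (f h2) k a b := by simp [eu]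

theorem eu_zero {K ι : Type*} [CommRing K] [Fintype ι] (l h1 h2 : K) (k : ι → ℕ) (n : ℕ) :
    eu l h1 h2 k (0 : Fin n → ℤ) 0 = (∏ i, (1 - l ^ k i)) ^ n := by simp [eu, prod_pow]

theorem eu_eq {ι J : Type*} [Fintype ι] [Fintype J] (k : ι → ℕ) (a b : J → ℤ) {y : ι → S}
    (hy : ∀ i, N L (k i) * y i = 1) : sc (t ^ 2) * eu (sc L) e1 e2 k a b =
      sc (t ^ (Fintype.card ι * Fintype.card J) * (∏ i, N L (k i)) ^ Fintype.card J) *
        EE ((∑ i, L ^ k i * y i) * (∑ j, a j : ℤ)) ((∑ i, L ^ k i * y i) * (∑ j, b j : ℤ))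
          ((∑ i, L ^ k i * y i ^ 2) * (∑ j, a j * b j : ℤ)) := by
  have := EE_prod (univ : Finset (ι × J)) (fun p => k p.1) (fun p => a p.2) (fun p => b p.2)
    (fun p => y p.1) fun p => hy p.1
  simp only [Fintype.prod_prod_type, Fintype.sum_prod_type, map_intCast, ← t_N, ← mul_sum,
    ← sum_mul, prod_const, card_univ, prod_mul_distrib, prod_pow] at this
  push_cast
  rw [eu, this, Fintype.card_prod]

theorem d6D {ι J J' : Type*} [Fintype ι] [Fintype J] [Fintype J'] {q M : ℕ} {k : ι → ℕ}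
    {a a' b b' : J → ℤ} {f f' : J' → ℤ}
    (hk : Odq q k) (h0 : q ≠ 0) (hq : 2 ∣ q) (ha : ∑ j, a j = ∑ j, b j)
    (ha' : ∑ j, a' j = ∑ j, b' j) {n : ℤ}
    (hn : ∑ j, b j * b' j - ∑ j, a j * a' j = 8 * (2 * n + 1))
    (hM : Fintype.card ι * Fintype.card J + Fintype.card ι * Fintype.card J' + 10 ≤ M)
    {x κ κ0 κw d p1 p2 p3 : DD}
    (hx : x ∈ OD) (hκ0 : κ0 ∈ OD) (hp : p3 ∈ OD) (uκ : UO (cp 0 κ)) (uw : UO (cp 0 κw))
    (h1 : x * (1 - sc L ^ q) = κ * eu (sc L) e1 e2 k a a' - κ0 * eu (sc L) e1 e2 k b b' +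
      sc t ^ M * p1)
    (h2 : eu (sc L) e1 e2 k a a' * eu (sc L) e1 e2 k f f' * d =
      sc t ^ 7 * x * κw * eu (sc L) e1 e2 k f f' + sc t ^ M * p2 + (1 - sc L ^ q) * p3) :
    Hs q (cp 3 d) ∧ Zs q (cp 0 d) ∧ Zs q (cp 1 d) ∧ Zs q (cp 2 d) := by
  have un : ∀ i, UO (N L (k i)) := fun i => by
    obtain ⟨c, -, e⟩ := N_eq (k i)
    obtain ⟨m, hm⟩ := hk.1 i
    exact uo_of (N_mem L_mem _) (natCast_mem O2 m) (by rw [e, hm]; simp [cc_t, map_ofNat])
  choose y ym hy using fun i => (un i).2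
  have uυ : UO ((∏ i, N L (k i)) ^ Fintype.card J) :=
    (prod_induction _ UO (fun _ _ => UO.mul) uo_one fun i _ => un i).pow _
  have uυ' : UO ((∏ i, N L (k i)) ^ Fintype.card J') :=
    (prod_induction _ UO (fun _ _ => UO.mul) uo_one fun i _ => un i).pow _
  obtain ⟨Y, hY⟩ := N_inv h0
  obtain ⟨h, hh, hm, z, ez⟩ := s2_val hk hy hY n
  have eE := eu_eq k a a' hy
  have eW := eu_eq k b b' hy
  have eF := eu_eq k f f' hy
  have m1 : ∑ i, L ^ k i * y i ∈ OS := OS.sum_mem fun i _ => OS.mul_mem (OS.pow_mem L_mem _) (ym i)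
  have m2 : ∑ i, L ^ k i * y i ^ 2 ∈ OS :=
    OS.sum_mem fun i _ => OS.mul_mem (OS.pow_mem L_mem _) (OS.pow_mem (ym i) 2)
  have hn' : ((∑ j, b j * b' j : ℤ) : S) - (∑ j, a j * a' j : ℤ) = 8 * (2 * n + 1) := by
    exact_mod_cast congrArg (Int.cast : ℤ → S) hn
  rw [ha, ha'] at eE
  have mA := OS.mul_mem m2 (intCast_mem OS (∑ j, a j * a' j))
  have mB := OS.mul_mem m2 (intCast_mem OS (∑ j, b j * b' j))
  have m3 := OS.mul_mem m1 (intCast_mem OS (∑ j, b j))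
  have m4 := OS.mul_mem m1 (intCast_mem OS (∑ j, b' j))
  have m5 := EE_mem (OS.neg_mem (OS.mul_mem m1 (intCast_mem OS (∑ j, f j))))
    (OS.neg_mem (OS.mul_mem m1 (intCast_mem OS (∑ j, f' j))))
    (OS.neg_mem (OS.mul_mem m2 (intCast_mem OS (∑ j, f j * f' j))))
  generalize (∑ i, L ^ k i * y i ^ 2) * ((∑ j, f j * f' j : ℤ) : S) = sF at eF m5
  generalize (∑ i, L ^ k i * y i) * ((∑ j, f j : ℤ) : S) = s3 at eF m5
  generalize (∑ i, L ^ k i * y i) * ((∑ j, f' j : ℤ) : S) = s4 at eF m5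
  generalize (∏ i, N L (k i)) ^ Fintype.card J' = υ' at *
  generalize Fintype.card ι * Fintype.card J' = c' at *
  generalize eu (sc L) e1 e2 k f f' = B' at *
  have hd : (∑ i, L ^ k i * y i ^ 2) * (∑ j, b j * b' j : ℤ) + -((∑ i, L ^ k i * y i ^ 2) *
    (∑ j, a j * a' j : ℤ)) = (∑ i, L ^ k i * y i ^ 2) * (8 * (2 * n + 1)) := by rw [← hn']; ring
  generalize (∑ i, L ^ k i * y i ^ 2) * (8 * (2 * n + 1)) = δ at *
  generalize (∑ i, L ^ k i * y i ^ 2) * ((∑ j, a j * a' j : ℤ) : S) = sA at *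
  generalize (∑ i, L ^ k i * y i ^ 2) * ((∑ j, b j * b' j : ℤ) : S) = sB at *
  generalize (∑ i, L ^ k i * y i) * ((∑ j, b j : ℤ) : S) = s1 at *
  generalize (∑ i, L ^ k i * y i) * ((∑ j, b' j : ℤ) : S) = s2 at *
  generalize (∏ i, N L (k i)) ^ Fintype.card J = υ at *
  generalize Fintype.card ι * Fintype.card J = c at *
  generalize eu (sc L) e1 e2 k a a' = A at *
  generalize eu (sc L) e1 e2 k b b' = B at *
  have z0 : EE 0 0 0 = sc (t ^ 2) := by simp [EE]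
  have z1 : EE 0 0 δ = sc (t ^ 2) - sc δ * (e1 * e2) := by simp [EE, sub_eq_add_neg]
  have fA : A * EE (-s1) (-s2) (-sA) = sc (t ^ c * υ) * sc (t ^ 2) := sc_can (by
    rw [← mul_assoc, eE, mul_assoc, EE_mul]; simp only [add_neg_cancel, z0]; ring)
  have fB : B * EE (-s1) (-s2) (-sB) = sc (t ^ c * υ) * sc (t ^ 2) := sc_can (by
    rw [← mul_assoc, eW, mul_assoc, EE_mul]; simp only [add_neg_cancel, z0]; ring)
  have fC : B * EE (-s1) (-s2) (-sA) = sc (t ^ c * υ) * (sc (t ^ 2) - sc δ * (e1 * e2)) := sc_can (by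
    rw [← mul_assoc, eW, mul_assoc, EE_mul]; simp only [add_neg_cancel, hd, z1]; ring)
  have fF : B' * EE (-s3) (-s4) (-sF) = sc (t ^ c' * υ') * sc (t ^ 2) := sc_can (by
    rw [← mul_assoc, eF, mul_assoc, EE_mul]; simp only [add_neg_cancel, z0]; ring)
  have mF := OD.mul_mem hp (OD.mul_mem (EE_mem (OS.neg_mem m3) (OS.neg_mem m4) (OS.neg_mem mA)) m5)
  have a0 : cp 0 A = t ^ c * υ := mul_right_cancel₀ (pow_ne_zero 2 t_ne) (by
    simpa [EE, -map_pow] using congrArg (cp 0) fA)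
  have b0 : cp 0 B = t ^ c * υ := mul_right_cancel₀ (pow_ne_zero 2 t_ne) (by
    simpa [EE, -map_pow] using congrArg (cp 0) fB)
  generalize EE (-s1) (-s2) (-sA) = FA at *
  generalize EE (-s3) (-s4) (-sF) = FB at *
  have eN : 1 - sc L ^ q = sc t * sc (N L q) := by rw [← map_mul, t_N]; simp
  rw [eN] at h1 h2
  have u0 : UO (cp 0 κ0) := by
    have k0 := congrArg (cp 0) h1
    simp only [← map_pow, map_add, map_sub, cp0_mul, cp0_sc, a0, b0] at k0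
    obtain ⟨j, rfl⟩ : ∃ j, M = c + (j + 1) := ⟨M - c - 1, by omega⟩
    obtain ⟨x', ex⟩ : ∃ x', x' = Y * (υ * (cp 0 κ - cp 0 κ0) + t ^ (j + 1) * cp 0 p1) := ⟨_, rfl⟩
    have mx : x' ∈ OS := shift_mem (n := c) (by
      convert OS.mul_mem t_mem (hx 0) using 1
      rw [ex]; linear_combination -Y * k0 + t * cp 0 x * hY)
    obtain ⟨-, τ, hτ, eτ⟩ := uυ
    obtain ⟨m, hm, em⟩ := uκ.odd
    obtain ⟨q', rfl⟩ := hq
    obtain ⟨w, -, ew⟩ := N_eq (2 * q')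
    have : cp 0 κ0 = cp 0 κ - τ * N L (2 * q') * x' + τ * t ^ (j + 1) * cp 0 p1 := by
      rw [ex]; linear_combination (τ * (υ * (cp 0 κ - cp 0 κ0) + t ^ (j + 1) * cp 0 p1)) * hY +
        (cp 0 κ - cp 0 κ0) * eτ
    refine uo_of (hκ0 0) (O2.sub_mem hm (O2.mul_mem (O2.mul_mem (cc_mem hτ) (natCast_mem O2 q'))
      (cc_mem mx))) ?_
    rw [this, ew]; simp [cc_t, em, map_ofNat]; ring
  have main : ∀ i, Ng q (cp i d - t ^ 4 * (Y * cp i (κw * ((κ - κ0) * sc (t ^ 2) +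
      κ0 * (sc δ * (e1 * e2)))))) := fun i => by
    refine fin_aux (n := c + c' + 3) (by omega) (uυ.mul uυ') (mF i) hY
      (z := cp i (sc t ^ 8 * sc (t ^ c' * υ') * κw * p1 * FA + sc (N L q) * p2 * FA * FB)) ?_
    rw [← cp_sc, ← cp_sc, ← cp_sc, ← cp_sc, ← map_add, ← map_add]
    congr 1
    simp only [map_mul, map_pow] at *
    generalize sc t = T at *
    generalize sc (N L q) = Q at *
    generalize sc υ = U at *
    generalize sc υ' = U' at *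
    linear_combination Q * FA * FB * h2 - Q * d * B' * FB * fA - Q * d * T ^ c * U * T ^ 2 * fF +
      Q * T ^ 7 * x * κw * FA * fF + T ^ 8 * T ^ c' * U' * κw * FA * h1 +
      T ^ 8 * T ^ c' * U' * κw * κ * fA - T ^ 8 * T ^ c' * U' * κw * κ0 * fC
  have low : ∀ {s g : S}, Ng q (s - t ^ 4 * (Y * (g * t ^ 2))) → Zs q s := fun {s g} h => by
    have := (h.add (s' := t ^ 4 * (Y * (g * t ^ 2))) ⟨Y * g, 0, OS.zero_mem, by ring⟩).zs
    rwa [sub_add_cancel] at this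
  refine ⟨?_, low (g := cp 0 (κw * (κ - κ0))) ?_, low (g := cp 1 (κw * (κ - κ0))) ?_,
    low (g := cp 2 (κw * (κ - κ0))) ?_⟩
  · have : Hs q (t ^ 4 * h) := ⟨h, hh, hm, 0, 0, OS.zero_mem, by simp⟩
    convert (this.mul (uw.mul u0)).add ((main 3).add ⟨Y * cp 3 (κw * (κ - κ0)) +
      cp 0 κw * cp 0 κ0 * z, 0, OS.zero_mem, rfl⟩).zs using 1
    simp [-map_pow, -map_mul]
    linear_combination t ^ 4 * cp 0 κw * cp 0 κ0 * ez
  · convert main 0 using 4; simp [-map_pow, -map_mul]; ring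
  · convert main 1 using 4; simp [-map_pow, -map_mul]; ring
  · convert main 2 using 4; simp [-map_pow, -map_mul]; ring

theorem odq_fin (n : ℕ) : Odq (2 ^ (n + 1)) fun j : Fin (2 ^ n) => 2 * j.val + 1 := by
  obtain ⟨m, hm, e⟩ := sum_inv_sq n
  refine ⟨fun j => odd_two_mul_add_one _, m, hm, ?_⟩
  rw [Finset.sum_range fun j => (1 : ℚ) / (2 * j + 1) ^ 2] at e
  push_cast; rw [e]; ring

theorem Odq.equiv {ι ι' : Type*} [Fintype ι] [Fintype ι'] {q : ℕ} {k : ι → ℕ} (h : Odq q k)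
    (e : ι' ≃ ι) : Odq q fun i => k (e i) :=
  ⟨fun i => h.1 _, by rw [e.sum_comp fun i => (1 / k i ^ 2 : ℚ)]; exact h.2⟩

/-- odd residues -/
def oddEquiv (n : ℕ) : {k : ZMod (2 ^ (n + 1)) // Odd k.val} ≃ Fin (2 ^ n) where
  toFun k := ⟨k.1.val / 2, by have := k.1.val_lt; omega⟩
  invFun j := ⟨(2 * j.val + 1 : ℕ), by
    rw [ZMod.val_cast_of_lt (by have := j.2; omega)]; exact odd_two_mul_add_one _⟩
  left_inv k := Subtype.ext (by simp only [Nat.two_mul_div_two_add_one_of_odd k.2]; simp)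
  right_inv j := Fin.ext (by
    simp only [ZMod.val_cast_of_lt (show 2 * j.val + 1 < 2 ^ (n + 1) by have := j.2; omega)]; omega)

theorem odq_zmod (n : ℕ) :
    Odq (2 ^ (n + 1)) fun k : {k : ZMod (2 ^ (n + 1)) // Odd k.val} => k.1.val := by
  convert (odq_fin n).equiv (oddEquiv n) using 2 with k
  exact (Nat.two_mul_div_two_add_one_of_odd k.2).symm

theorem zpow_unit {R : Type*} [CommRing R] (l : Rˣ) (h : (1 - (l : R)) ^ 2 = 0) (n : ℤ) :
    ((l ^ n : Rˣ) : R) = 1 + n * (l - 1) := by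
  induction n using Int.induction_on with
  | zero => simp
  | succ n ih => rw [zpow_add_one, Units.val_mul, ih]; push_cast; linear_combination n * h
  | pred n ih =>
    rw [zpow_sub_one, Units.val_mul, ih, Units.mul_inv_eq_iff_eq_mul]; push_cast
    linear_combination (n + 1 : R) * h

theorem lf_uo {y : DD} (h : y ∈ OD) {y' : DD} (h' : y' ∈ OD) {M q : ℕ} (hM : M ≠ 0) {a b : DD}
    (e : y * y' = 1 + (1 - sc L) ^ M * a + (1 - sc L ^ q) * b) : UO (cp 0 y) := by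
  have := congrArg (fun x => constantCoeff (cp 0 x)) e
  simp only [← map_pow, ← map_one sc, ← map_sub, map_add, cp0_mul, cp0_sc, map_mul] at this
  obtain ⟨m, hm, k⟩ := odd_of_mul (cc_mem (h 0)) (cc_mem (h' 0)) (by simpa [cc_L, hM] using this)
  exact uo_of (h 0) hm k

/-- **D6**, algebraic half -/
theorem d6 {R₁ R A B C C₀ ι J J' : Type*} [CommRing R₁] [CommRing R] [CommRing A] [CommRing B]
    [CommRing C] [CommRing C₀] [Fintype ι] [Fintype J] [Fintype J'] {q M : ℕ} {k : ι → ℕ}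
    {a a' b b' : J → ℤ} {f f' : J' → ℤ}
    {l₁ : R₁} {i : R₁ →+* R} {l₂ : R} (p₁ : Pz (Int.castRingHom R₁) l₁ 2 0) (p₂ : Pz i l₂ 2 0)
    {iA : R →+* A} {l : A} (pA : Pz iA l M 0) {π : A →+* B} (pB : Pz (π.comp iA) (π l) M q)
    {ρ : B →+* C} (pC : Pz (ρ.comp (π.comp iA)) (ρ (π l)) 7 q)
    {l₀ : C₀} (p₀ : Pz (Int.castRingHom C₀) l₀ 7 q) {j : C₀ →+* C} (hj : j l₀ = ρ (π l))
    (hk : Odq q k) (h0 : q ≠ 0) (hq : 2 ∣ q) (ha : ∑ j, a j = ∑ j, b j)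
    (ha' : ∑ j, a' j = ∑ j, b' j) {n : ℤ}
    (hn : ∑ j, b j * b' j - ∑ j, a j * a' j = 8 * (2 * n + 1))
    (hM : Fintype.card ι * Fintype.card J + Fintype.card ι * Fintype.card J' + 10 ≤ M)
    {x κ κ0 eE eW e' : A} {κw d : B}
    (hE : eE = eu l (iA (i l₁ - 1)) (iA (l₂ - 1)) k a a')
    (hW : eW = eu l (iA (i l₁ - 1)) (iA (l₂ - 1)) k b b')
    (hF : e' = eu l (iA (i l₁ - 1)) (iA (l₂ - 1)) k f f')
    (uκ : IsUnit (π κ)) (uw : IsUnit κw) (h1 : x * (1 - l ^ q) = κ * eE - κ0 * eW)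
    (h2 : π eE * π e' * d = (1 - π l) ^ 7 * π x * κw * π e') {a₀ a₁ a₂ a₃ : C₀}
    (hd : ρ d = j a₀ + j a₁ * ρ (π (iA (i l₁ - 1))) + j a₂ * ρ (π (iA (l₂ - 1))) +
      j a₃ * (ρ (π (iA (i l₁ - 1))) * ρ (π (iA (l₂ - 1))))) :
    Hf l₀ q a₃ ∧ Zf l₀ q a₀ ∧ Zf l₀ q a₁ ∧ Zf l₀ q a₂ := by
  obtain ⟨g₁, -, g1⟩ := p₁.lift (Int.castRingHom DD) (1 + e1) (by apply ext4 <;> simp [pow_two])
    (pow_zero _)
  obtain ⟨g, g2, g3⟩ := p₂.lift g₁ (1 + e2) (by apply ext4 <;> simp [pow_two]) (pow_zero _)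
  have mg : ∀ y, g y ∈ OD := p₂.mem OD g (fun y => g2 y ▸ p₁.mem OD g₁ (fun n => by
    simp only [eq_intCast, map_intCast]; exact intCast_mem OD n) (g1 ▸ OD.add_mem OD.one_mem e1_mem) y)
    (g3 ▸ OD.add_mem OD.one_mem e2_mem)
  have s1 : g (i l₁ - 1) = e1 := by rw [map_sub, g2, g1, map_one, add_sub_cancel_left]
  have s2 : g (l₂ - 1) = e2 := by rw [map_sub, g3, map_one, add_sub_cancel_left]
  generalize i l₁ - 1 = η₁ at *
  generalize l₂ - 1 = η₂ at *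
  have mv := ev_mem OD mg (sc_mem L_mem)
  have tT : 1 - sc L = sc t := by simp [L]
  let V := Polynomial.eval₂RingHom g (sc L)
  let vA := Polynomial.eval₂RingHom iA l
  let vB := Polynomial.eval₂RingHom (π.comp iA) (π l)
  let vC := Polynomial.eval₂RingHom (ρ.comp (π.comp iA)) (ρ (π l))
  have AB : ∀ p, π (vA p) = vB p := fun p => Polynomial.hom_eval₂ _ _ _ _
  have BC : ∀ p, ρ (vB p) = vC p := fun p => Polynomial.hom_eval₂ _ _ _ _
  have dA : ∀ {p p'}, vA p = vA p' → ∃ u, V p = V p' + sc t ^ M * u := fun h =>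
    let ⟨u, _, e⟩ := pA.diff g (sc L) h; ⟨_, by rw [tT, pow_zero, sub_self, zero_mul, add_zero] at e; exact e⟩
  have dB : ∀ {p p'}, vB p = vB p' → ∃ u, ∃ w ∈ OD,
      V p = V p' + (1 - sc L) ^ M * u + (1 - sc L ^ q) * w :=
    fun h => let ⟨_, w, e⟩ := pB.diff g (sc L) h; ⟨_, _, mv w, e⟩
  have sA : Function.Surjective vA := pA.1
  have sB : Function.Surjective vB := pB.1
  obtain ⟨x, rfl⟩ := sA x
  obtain ⟨κ, rfl⟩ := sA κ
  obtain ⟨κ0, rfl⟩ := sA κ0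
  obtain ⟨κw, rfl⟩ := sB κw
  obtain ⟨d, rfl⟩ := sB d
  have un : ∀ p, IsUnit (vB p) → UO (cp 0 (V p)) := fun p h => by
    obtain ⟨y, e⟩ := h.exists_right_inv
    obtain ⟨y, rfl⟩ := sB y
    obtain ⟨u, w, -, e⟩ := dB (p := p * y) (p' := 1) (by rw [map_mul, e, map_one])
    rw [map_mul, map_one] at e
    exact lf_uo (mv p) (mv y) (by omega) e
  have aF : eu l (iA η₁) (iA η₂) k f f' =
      vA (eu Polynomial.X (Polynomial.C η₁) (Polynomial.C η₂) k f f') := by simp [map_eu, vA]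
  have vF : V (eu Polynomial.X (Polynomial.C η₁) (Polynomial.C η₂) k f f') =
      eu (sc L) e1 e2 k f f' := by simp [map_eu, V, s1, s2]
  rw [aF] at hF
  have aE : ∀ a a' : J → ℤ, eu l (iA η₁) (iA η₂) k a a' =
      vA (eu Polynomial.X (Polynomial.C η₁) (Polynomial.C η₂) k a a') := fun a a' => by
    simp [map_eu, vA]
  have vE : ∀ a a' : J → ℤ, V (eu Polynomial.X (Polynomial.C η₁) (Polynomial.C η₂) k a a') =
      eu (sc L) e1 e2 k a a' := fun a a' => by simp [map_eu, V, s1, s2]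
  rw [aE] at hE hW
  have xA : l = vA Polynomial.X := by simp [vA]
  have xV : V Polynomial.X = sc L := by simp [V]
  subst hE hW hF
  obtain ⟨u1, k1⟩ := dA (p := x * (1 - Polynomial.X ^ q)) (p' := κ * _ - κ0 * _) (by
    simpa only [map_mul, map_sub, map_one, map_pow, ← xA] using h1)
  obtain ⟨u2, u3, m3, k2⟩ := dB (p := _ * _ * d) (p' := (1 - Polynomial.X) ^ 7 * x * κw * _) (by
    simpa only [map_mul, map_sub, map_one, map_pow, ← AB Polynomial.X, ← xA, AB] using h2)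
  simp only [map_mul, map_sub, map_one, map_pow, xV, vE, vF, tT] at k1 k2
  obtain ⟨r3, r0, r1, r2⟩ := d6D hk h0 hq ha ha' hn hM (mv x) (mv κ0) m3 (un κ (AB κ ▸ uκ))
    (un κw uw) k1 k2
  obtain ⟨c₀, rfl⟩ := p₀.1 a₀
  obtain ⟨c₁, rfl⟩ := p₀.1 a₁
  obtain ⟨c₂, rfl⟩ := p₀.1 a₂
  obtain ⟨c₃, rfl⟩ := p₀.1 a₃
  have jv : ∀ c : Polynomial ℤ, j (c.eval₂ (Int.castRingHom C₀) l₀) =
      vC (c.map (Int.castRingHom R)) := fun c => by
    rw [Polynomial.hom_eval₂, hj, Polynomial.coe_eval₂RingHom, Polynomial.eval₂_map]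
    exact congrArg (Polynomial.eval₂ · _ c) (Subsingleton.elim _ _)
  have Vv : ∀ c : Polynomial ℤ, V (c.map (Int.castRingHom R)) =
      sc (c.eval₂ (Int.castRingHom S) L) := fun c => by
    rw [Polynomial.hom_eval₂, Polynomial.coe_eval₂RingHom, Polynomial.eval₂_map]
    exact congrArg (Polynomial.eval₂ · _ c) (Subsingleton.elim _ _)
  have cC : ∀ η, ρ (π (iA η)) = vC (Polynomial.C η) := fun η => by simp [vC]
  have cV : ∀ η, V (Polynomial.C η) = g η := fun η => by simp [V]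
  simp only [jv, cC, BC, ← map_mul, ← map_add] at hd
  obtain ⟨u, w, e⟩ := pC.diff g (sc L) hd
  change V d = V _ + _ * V u + _ * V w at e
  simp only [map_add, map_mul, Vv, cV, s1, s2, tT, ← map_pow, ← map_one sc, ← map_sub] at e
  rw [show 1 - L = t by simp [L]] at e
  have ng : ∀ i, Ng q (-1 * (t ^ 7 * cp i (V u) + (1 - L ^ q) * cp i (V w))) := fun i =>
    (ng_rel (by norm_num) _ (mv w i)).mul (OS.neg_mem OS.one_mem)
  refine ⟨⟨_, ⟨c₃, rfl, rfl⟩, ?_⟩, ⟨_, ⟨c₀, rfl, rfl⟩, ?_⟩, ⟨_, ⟨c₁, rfl, rfl⟩, ?_⟩,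
    ⟨_, ⟨c₂, rfl, rfl⟩, ?_⟩⟩
  · convert r3.add (ng 3).zs using 1; rw [e]
    simp only [map_add, cp_sc, cp0_sc, cp1_sc, cp2_sc, cp3_sc]; simp
  · convert r0.add (ng 0).zs using 1; rw [e]
    simp only [map_add, cp_sc, cp0_sc, cp1_sc, cp2_sc, cp3_sc]; simp
  · convert r1.add (ng 1).zs using 1; rw [e]
    simp only [map_add, cp_sc, cp0_sc, cp1_sc, cp2_sc, cp3_sc]; simp
  · convert r2.add (ng 2).zs using 1; rw [e]
    simp only [map_add, cp_sc, cp0_sc, cp1_sc, cp2_sc, cp3_sc]; simp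

end Crest.Agent.N218.Al
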