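import Mathlib

/-!
# Row 218 (helper23): the functional `φ` on `K(CP⁶) = ℤ[L] / (1 - L) ^ 7`, series level
-/

set_option autoImplicit false

open PowerSeries

noncomputable section

namespace Crest.Agent.N218.Al

/-- rationals with odd denominator -/
def O2 : Subring ℚ where
  carrier := {x | Odd x.den}
  mul_mem' {a b} ha hb := (Odd.mul ha hb).of_dvd_nat (Rat.mul_den_dvd a b)
  add_mem' {a b} ha hb := (Odd.mul ha hb).of_dvd_nat (Rat.add_den_dvd a b)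
  one_mem' := by simp
  zero_mem' := by simp
  neg_mem' {a} ha := by simpa using ha

theorem mem_O2 {x : ℚ} : x ∈ O2 ↔ Odd x.den := Iff.rfl

theorem inv_mem {n : ℤ} (h : Odd n) : (n : ℚ)⁻¹ ∈ O2 := by
  rw [mem_O2, Rat.inv_intCast_den, if_neg (by rintro rfl; simp at h)]
  exact Int.natAbs_odd.2 h

theorem div_mem (a : ℤ) {n : ℤ} (h : Odd n) : (a : ℚ) / n ∈ O2 :=
  div_eq_mul_inv (a : ℚ) n ▸ O2.mul_mem (intCast_mem O2 a) (inv_mem h)

theorem of_odd_mul {n : ℤ} (h : Odd n) {x : ℚ} (hx : n * x ∈ O2) : x ∈ O2 := by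
  have h0 : (n : ℚ) ≠ 0 := by rintro k; rw [Int.cast_eq_zero] at k; subst k; simp at h
  have := O2.mul_mem (inv_mem h) hx
  rwa [← mul_assoc, inv_mul_cancel₀ h0, one_mul] at this

theorem half_not_mem : (1 / 2 : ℚ) ∉ O2 := by
  rw [mem_O2]; norm_num

/-- series in `t = 1 - L` -/
abbrev S := PowerSeries ℚ

/-- `T = 1 - L` -/
def t : S := X
/-- `ρ³(L) = 1 + L + L²` -/
def r : S := 3 - 3 * t + t ^ 2
/-- `L⁻¹` -/
def u : S := mk 1

theorem u_mul : u * (1 - t) = 1 := mk_one_mul_one_sub_eq_one ℚ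

theorem t_ne : t ≠ 0 := X_ne_zero

theorem cc_t : constantCoeff t = 0 := constantCoeff_X

/-- series with `2`-integral coefficients -/
def OS : Subring S where
  carrier := {h | ∀ n, coeff n h ∈ O2}
  mul_mem' {a b} ha hb n := by
    rw [coeff_mul]; exact O2.sum_mem fun p _ => O2.mul_mem (ha _) (hb _)
  add_mem' {a b} ha hb n := by rw [map_add]; exact O2.add_mem (ha n) (hb n)
  one_mem' n := by rw [coeff_one]; split_ifs; exacts [O2.one_mem, O2.zero_mem]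
  zero_mem' n := by rw [map_zero]; exact O2.zero_mem
  neg_mem' {a} ha n := by rw [map_neg]; exact O2.neg_mem (ha n)

theorem t_mem : t ∈ OS := fun n => by
  rw [t, coeff_X]; split_ifs; exacts [O2.one_mem, O2.zero_mem]

theorem u_mem : u ∈ OS := fun n => by rw [u, coeff_mk]; exact O2.one_mem

theorem C_mem {x : ℚ} (h : x ∈ O2) : (C x : S) ∈ OS := fun n => by
  rw [coeff_C]; split_ifs; exacts [h, O2.zero_mem]

theorem hs : HasSubst (t * r) := HasSubst.of_constantCoeff_zero' (by simp [cc_t])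

/-- the Adams operation `ψ³` -/
def ps : S →ₐ[ℚ] S := substAlgHom hs

theorem ps_t : ps t = t * r := substAlgHom_X hs

theorem ps_L : ps (1 - t) = (1 - t) ^ 3 := by rw [map_sub, map_one, ps_t, r]; ring

theorem co_mul (n : ℕ) (h : S) : coeff n (t ^ (n + 1) * h) = 0 := by
  rw [t, coeff_X_pow_mul', if_neg (by omega)]

theorem co_shift (n k : ℕ) (h : S) : coeff (n + k) (t ^ k * h) = coeff n h :=
  coeff_X_pow_mul h k n

/-- a polynomial of degree `≤ 6` -/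
def pl (a b c d e f g : ℚ) : S :=
  C a + C b * t + C c * t ^ 2 + C d * t ^ 3 + C e * t ^ 4 + C f * t ^ 5 + C g * t ^ 6

/-- the kernel of `φ` -/
def W : S := pl 0 (-31 / 264627) (-2471 / 2117016) (-508501 / 82563624) (-7558337 / 330254496)
  (-33303937 / 495381744) 0

/-- the functional `φ (e / ρ³(7 L))` -/
def ph : S →ₗ[ℚ] ℚ := coeff 6 ∘ₗ LinearMap.mulRight ℚ W

/-- `L⁻³ - 64 L⁻² + 63 L⁻¹` -/
def w : S := u ^ 3 * (t * (63 * t - 62))

/-- `F ↦ F(2) - 64 F(1) + 63 F(0)` -/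
def lc : S →ₗ[ℚ] ℚ := coeff 6 ∘ₗ LinearMap.mulRight ℚ w

theorem ph_apply (h : S) : ph h = coeff 6 (h * W) := rfl
theorem lc_apply (h : S) : lc h = coeff 6 (h * w) := rfl

theorem w_mem : w ∈ OS :=
  OS.mul_mem (OS.pow_mem u_mem 3) (OS.mul_mem t_mem (OS.sub_mem
    (OS.mul_mem (ofNat_mem OS 63) t_mem) (ofNat_mem OS 62)))

theorem lc_mem {h : S} (hh : h ∈ OS) : lc h ∈ O2 := OS.mul_mem hh w_mem 6

theorem ph_t7 (h : S) : ph (t ^ 7 * h) = 0 := by rw [ph_apply, mul_assoc, co_mul 6]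

theorem lc_t6 (h : S) : lc (t ^ 6 * h) = 0 := by
  rw [lc_apply, show t ^ 6 * h * w = t ^ 7 * (h * u ^ 3 * (63 * t - 62)) by rw [w]; ring, co_mul 6]

theorem lc_t7 (h : S) : lc (t ^ 7 * h) = 0 := by
  rw [show t ^ 7 * h = t ^ 6 * (t * h) by ring, lc_t6]

theorem co_pl (a b c d e f g a' b' c' d' e' f' g' : ℚ) :
    coeff 6 (pl a b c d e f g * pl a' b' c' d' e' f' g') =
      a * g' + b * f' + c * e' + d * d' + e * c' + f * b' + g * a' := by
  rw [coeff_mul, Finset.Nat.sum_antidiagonal_eq_sum_range_succ_mk]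
  simp [Finset.sum_range_succ, pl, t, coeff_X_pow, coeff_X, coeff_C]

theorem ph_pl (a b c d e f g : ℚ) (h : S) : ph (pl a b c d e f g + t ^ 7 * h) =
    b * (-33303937 / 495381744) + c * (-7558337 / 330254496) + d * (-508501 / 82563624) +
      e * (-2471 / 2117016) + f * (-31 / 264627) := by
  rw [map_add, ph_t7, ph_apply, W, co_pl]; ring

theorem w_eq : ∃ h, w = pl 0 (-62) (-123) (-183) (-242) (-300) (-357) + t ^ 7 * h := by
  refine ⟨u ^ 3 * (-413 + 771 * t - 357 * t ^ 2), ?_⟩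
  have : pl 0 (-62) (-123) (-183) (-242) (-300) (-357) * (1 - t) ^ 3 =
      t * (63 * t - 62) - t ^ 7 * (-413 + 771 * t - 357 * t ^ 2) := by
    simp only [pl, map_neg, map_ofNat, map_zero]; ring
  have k : u ^ 3 * (1 - t) ^ 3 = 1 := by rw [← mul_pow, u_mul, one_pow]
  rw [w]
  linear_combination (-u ^ 3) * this + pl 0 (-62) (-123) (-183) (-242) (-300) (-357) * k

theorem lc_pl (a b c d e f g : ℚ) (h : S) : lc (pl a b c d e f g + t ^ 7 * h) =
    a * (-357) + b * (-300) + c * (-242) + d * (-183) + e * (-123) + f * (-62) := by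
  obtain ⟨k, hk⟩ := w_eq
  rw [map_add, lc_t7, lc_apply, hk, mul_add, map_add, co_pl, mul_left_comm, co_mul 6]; ring

theorem exists_pl (F : S) : ∃ h, F = pl (coeff 0 F) (coeff 1 F) (coeff 2 F) (coeff 3 F) (coeff 4 F)
    (coeff 5 F) (coeff 6 F) + t ^ 7 * h := by
  have : t ^ 7 ∣ F - pl (coeff 0 F) (coeff 1 F) (coeff 2 F) (coeff 3 F) (coeff 4 F)
      (coeff 5 F) (coeff 6 F) := X_pow_dvd_iff.2 fun m hm => by
    interval_cases m <;> simp [pl, t, coeff_X_pow, coeff_C]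
  obtain ⟨h, hh⟩ := this
  exact ⟨h, by rw [← hh]; ring⟩

theorem key0 : ph (3 ^ 7 * (t * r) ^ 0 - r ^ 7 * t ^ 0) = -357 := by
  have : 3 ^ 7 * (t * r) ^ 0 - r ^ 7 * t ^ 0 = pl (0) (15309) (-51030) (107163) (-158193) (173502) (-145719) + t ^ 7 * ((95175) * t ^ 0 + (-48573) * t ^ 1 + (19278) * t ^ 2 + (-5859) * t ^ 3 + (1323) * t ^ 4 + (-210) * t ^ 5 + (21) * t ^ 6 + (-1) * t ^ 7) := by
    simp only [pl, r, map_neg, map_ofNat, map_zero]; ring
  rw [this, ph_pl]; norm_num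

theorem key1 : ph (3 ^ 7 * (t * r) ^ 1 - r ^ 7 * t ^ 1) = -300 := by
  have : 3 ^ 7 * (t * r) ^ 1 - r ^ 7 * t ^ 1 = pl (0) (4374) (8748) (-48843) (107163) (-158193) (173502) + t ^ 7 * ((-145719) * t ^ 0 + (95175) * t ^ 1 + (-48573) * t ^ 2 + (19278) * t ^ 3 + (-5859) * t ^ 4 + (1323) * t ^ 5 + (-210) * t ^ 6 + (21) * t ^ 7 + (-1) * t ^ 8) := by
    simp only [pl, r, map_neg, map_ofNat, map_zero]; ring
  rw [this, ph_pl]; norm_num

theorem key2 : ph (3 ^ 7 * (t * r) ^ 2 - r ^ 7 * t ^ 2) = -242 := by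
  have : 3 ^ 7 * (t * r) ^ 2 - r ^ 7 * t ^ 2 = pl (0) (0) (17496) (-24057) (-18225) (94041) (-156006) + t ^ 7 * ((173502) * t ^ 0 + (-145719) * t ^ 1 + (95175) * t ^ 2 + (-48573) * t ^ 3 + (19278) * t ^ 4 + (-5859) * t ^ 5 + (1323) * t ^ 6 + (-210) * t ^ 7 + (21) * t ^ 8 + (-1) * t ^ 9) := by
    simp only [pl, r, map_neg, map_ofNat, map_zero]; ring
  rw [this, ph_pl]; norm_num

theorem key3 : ph (3 ^ 7 * (t * r) ^ 3 - r ^ 7 * t ^ 3) = -183 := by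
  have : 3 ^ 7 * (t * r) ^ 3 - r ^ 7 * t ^ 3 = pl (0) (0) (0) (56862) (-161838) (185166) (-69984) + t ^ 7 * ((-79461) * t ^ 0 + (153819) * t ^ 1 + (-143532) * t ^ 2 + (95175) * t ^ 3 + (-48573) * t ^ 4 + (19278) * t ^ 5 + (-5859) * t ^ 6 + (1323) * t ^ 7 + (-210) * t ^ 8 + (21) * t ^ 9 + (-1) * t ^ 10) := by
    simp only [pl, r, map_neg, map_ofNat, map_zero]; ring
  rw [this, ph_pl]; norm_num

theorem key4 : ph (3 ^ 7 * (t * r) ^ 4 - r ^ 7 * t ^ 4) = -123 := by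
  have : 3 ^ 7 * (t * r) ^ 4 - r ^ 7 * t ^ 4 = pl (0) (0) (0) (0) (174960) (-693279) (1248048) + t ^ 7 * ((-1310013) * t ^ 0 + (845640) * t ^ 1 + (-298890) * t ^ 2 + (-1377) * t ^ 3 + (68931) * t ^ 4 + (-46386) * t ^ 5 + (19278) * t ^ 6 + (-5859) * t ^ 7 + (1323) * t ^ 8 + (-210) * t ^ 9 + (21) * t ^ 10 + (-1) * t ^ 11) := by
    simp only [pl, r, map_neg, map_ofNat, map_zero]; ring
  rw [this, ph_pl]; norm_num

theorem key5 : ph (3 ^ 7 * (t * r) ^ 5 - r ^ 7 * t ^ 5) = -62 := by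
  have : 3 ^ 7 * (t * r) ^ 5 - r ^ 7 * t ^ 5 = pl (0) (0) (0) (0) (0) (529254) (-2641896) + t ^ 7 * ((6149115) * t ^ 0 + (-8750187) * t ^ 1 + (8403912) * t ^ 2 + (-5672349) * t ^ 3 + (2708316) * t ^ 4 + (-888975) * t ^ 5 + (181062) * t ^ 6 + (-13527) * t ^ 7 + (-3672) * t ^ 8 + (1323) * t ^ 9 + (-210) * t ^ 10 + (21) * t ^ 11 + (-1) * t ^ 12) := by
    simp only [pl, r, map_neg, map_ofNat, map_zero]; ring
  rw [this, ph_pl]; norm_num

theorem key6 : ph (3 ^ 7 * (t * r) ^ 6 - r ^ 7 * t ^ 6) = 0 := by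
  have : 3 ^ 7 * (t * r) ^ 6 - r ^ 7 * t ^ 6 = pl (0) (0) (0) (0) (0) (0) (1592136) + t ^ 7 * ((-9550629) * t ^ 0 + (27052461) * t ^ 1 + (-47722527) * t ^ 2 + (58300317) * t ^ 3 + (-51907716) * t ^ 4 + (34516044) * t ^ 5 + (-17265231) * t ^ 6 + (6446817) * t ^ 7 + (-1752192) * t ^ 8 + (328752) * t ^ 9 + (-38043) * t ^ 10 + (1977) * t ^ 11 + (21) * t ^ 12 + (-1) * t ^ 13) := by
    simp only [pl, r, map_neg, map_ofNat, map_zero]; ring
  rw [this, ph_pl]; norm_num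

theorem ph_C (a : ℚ) (h : S) : ph (C a * h) = a * ph h := by
  rw [← smul_eq_C_mul, map_smul, smul_eq_mul]

theorem lc_C (a : ℚ) (h : S) : lc (C a * h) = a * lc h := by
  rw [← smul_eq_C_mul, map_smul, smul_eq_mul]

theorem ps_C (a : ℚ) : ps (C a) = C a := ps.commutes a

/-- **the key identity** `φ ((θ - 1) F) = F(2) - 64 F(1) + 63 F(0)` -/
theorem key (F : S) : ph (3 ^ 7 * ps F - r ^ 7 * F) = lc F := by
  obtain ⟨h, hh⟩ := exists_pl F
  generalize coeff 0 F = a, coeff 1 F = b, coeff 2 F = c, coeff 3 F = d, coeff 4 F = e,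
    coeff 5 F = f, coeff 6 F = g at hh
  have : 3 ^ 7 * ps F - r ^ 7 * F =
      C a * (3 ^ 7 * (t * r) ^ 0 - r ^ 7 * t ^ 0) + C b * (3 ^ 7 * (t * r) ^ 1 - r ^ 7 * t ^ 1) +
      C c * (3 ^ 7 * (t * r) ^ 2 - r ^ 7 * t ^ 2) + C d * (3 ^ 7 * (t * r) ^ 3 - r ^ 7 * t ^ 3) +
      C e * (3 ^ 7 * (t * r) ^ 4 - r ^ 7 * t ^ 4) + C f * (3 ^ 7 * (t * r) ^ 5 - r ^ 7 * t ^ 5) +
      C g * (3 ^ 7 * (t * r) ^ 6 - r ^ 7 * t ^ 6) +
      t ^ 7 * (3 ^ 7 * r ^ 7 * ps h - r ^ 7 * h) := by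
    rw [hh]; simp only [pl, map_add, map_mul, map_pow, ps_C, ps_t]; ring
  rw [this, hh, lc_pl]
  simp only [map_add, ph_C, ph_t7, key0, key1, key2, key3, key4, key5, key6]; ring

theorem ph_t6 (h : S) : ph (t ^ 6 * h) = 0 := by
  obtain ⟨k, hk⟩ : t ∣ W := X_dvd_iff.2 (by simp [W, pl, cc_t])
  rw [ph_apply, hk, show t ^ 6 * h * (t * k) = t ^ 7 * (h * k) by ring, co_mul 6]

theorem W_mem : 32 * W ∈ OS := by
  have e : 32 * W = pl 0 (((-992 : ℤ) : ℚ) / (264627 : ℤ)) (((-9884 : ℤ) : ℚ) / (264627 : ℤ))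
      (((-2034004 : ℤ) : ℚ) / (10320453 : ℤ)) (((-7558337 : ℤ) : ℚ) / (10320453 : ℤ))
      (((-66607874 : ℤ) : ℚ) / (30961359 : ℤ)) 0 := by
    rw [show (32 : S) = C 32 from (map_ofNat C 32).symm]
    simp only [W, pl, mul_add, ← mul_assoc, ← map_mul]; norm_num
  rw [e, pl]
  have z := C_mem O2.zero_mem
  have p := fun n => OS.pow_mem t_mem n
  refine OS.add_mem (OS.add_mem (OS.add_mem (OS.add_mem (OS.add_mem (OS.add_mem z
    (OS.mul_mem (C_mem ?_) t_mem)) (OS.mul_mem (C_mem ?_) (p 2))) (OS.mul_mem (C_mem ?_) (p 3)))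
    (OS.mul_mem (C_mem ?_) (p 4))) (OS.mul_mem (C_mem ?_) (p 5))) (OS.mul_mem z (p 6)) <;>
  exact div_mem _ (by decide)

/-- bounded denominators -/
theorem ph_den {h : S} (hh : h ∈ OS) : 32 * ph h ∈ O2 := by
  have := OS.mul_mem hh W_mem 6
  rwa [mul_left_comm, show (32 : S) = C 32 from (map_ofNat C 32).symm, coeff_C_mul] at this

theorem ph_32 {h : S} (hh : h ∈ OS) : ph (32 * h) ∈ O2 := by
  rw [show (32 : S) = C 32 from (map_ofNat C 32).symm, ph_C]; exact ph_den hh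

theorem ph_t5 {h : S} (hh : h ∈ OS) : ph (t ^ 5 * h) ∈ O2 := by
  obtain ⟨k, hk⟩ : t ∣ h - C (coeff 0 h) := X_dvd_iff.2 (by simp)
  have : t ^ 5 * h = pl 0 0 0 0 0 (coeff 0 h) 0 + t ^ 7 * 0 + t ^ 6 * k := by
    simp only [pl, map_zero]; linear_combination t ^ 5 * hk
  rw [this, map_add, ph_t6, ph_pl]
  have := O2.mul_mem (hh 0) (div_mem (-31) (n := 264627) (by decide))
  convert this using 1; push_cast; ring

/-- the value `1 / 2` -/
theorem ph_t4 {h : S} (hh : h ∈ OS) {m : ℚ} (mm : m ∈ O2) (hm : coeff 0 h = 8 * m + 4) :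
    ph (t ^ 4 * h) - 1 / 2 ∈ O2 := by
  obtain ⟨k, hk⟩ : t ∣ h - C (coeff 0 h) := X_dvd_iff.2 (by simp)
  have km : k ∈ OS := fun n => by
    have := congrArg (coeff (n + 1)) hk
    rw [map_sub, coeff_C, if_neg (by omega), sub_zero, ← pow_one t, co_shift] at this
    exact this ▸ hh _
  have : t ^ 4 * h = pl 0 0 0 0 (coeff 0 h) 0 0 + t ^ 7 * 0 + t ^ 5 * k := by
    simp only [pl, map_zero]; linear_combination t ^ 4 * hk
  rw [this, map_add, ph_pl, hm]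
  have := O2.add_mem (O2.add_mem (O2.mul_mem mm (div_mem (-2471) (n := 264627) (by decide)))
    (div_mem (-133549) (n := 264627) (by decide))) (ph_t5 km)
  convert this using 1; push_cast; ring

end Crest.Agent.N218.Al

end
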